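import Crest.Agent.R001.LS.Spaced

/-! R001, block LS: large sieve, arithmetic (variance over residue classes) form for prime moduli. -/

set_option autoImplicit false

namespace Crest.Agent.R001.LS

open Finset

/-- The points `a/p` are spaced. -/
theorem nd_farey {p q : ℕ} (hp : p.Prime) (hq : q.Prime) {a b : ℕ} (ha : 0 < a) (hap : a < p)
    (_hb : 0 < b) (hbq : b < q) (hne : ¬ (p = q ∧ a = b)) {Q : ℕ} (hpQ : p ≤ Q) (hqQ : q ≤ Q) :
    1 / (Q : ℝ) ^ 2 ≤ nd ((a : ℝ) / p - (b : ℝ) / q) := by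
  have hp0 : (0 : ℝ) < p := by exact_mod_cast hp.pos
  have hq0 : (0 : ℝ) < q := by exact_mod_cast hq.pos
  set k : ℤ := round ((a : ℝ) / p - (b : ℝ) / q) with hk
  set m : ℤ := a * q - b * p - k * (p * q) with hm
  have h1 : nd ((a : ℝ) / p - (b : ℝ) / q) = |(m : ℝ)| / (p * q) := by
    have h2 : (a : ℝ) / p - (b : ℝ) / q - k = (m : ℝ) / (p * q) := by
      rw [hm]
      push_cast
      field_simp
    unfold nd
    rw [← hk, h2, abs_div, abs_of_pos (mul_pos hp0 hq0)]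
  have hm0 : m ≠ 0 := by
    intro h0
    by_cases hpq : p = q
    · subst hpq
      have hab : a ≠ b := fun h => hne ⟨rfl, h⟩
      have h3 : ((a : ℤ) - b - k * p) * p = 0 := by
        rw [← h0, hm]; ring
      have hpz : (p : ℤ) ≠ 0 := by exact_mod_cast hp.ne_zero
      have h4 : (a : ℤ) - b - k * p = 0 := by
        rcases mul_eq_zero.1 h3 with h | h
        · exact h
        · exact absurd h hpz
      have h5 : (p : ℤ) ∣ (a : ℤ) - b := ⟨k, by linarith⟩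
      have h6 : |(a : ℤ) - b| < p := by
        rw [abs_lt]
        constructor <;> omega
      have h7 := Int.eq_zero_of_abs_lt_dvd h5 h6
      omega
    · have h3 : (p : ℤ) ∣ (a : ℤ) * q := by
        refine ⟨b + k * q, ?_⟩
        have : (a : ℤ) * q = m + b * p + k * (p * q) := by rw [hm]; ring
        rw [this, h0]
        ring
      have h4 : p ∣ a * q := by exact_mod_cast h3
      rcases (Nat.Prime.dvd_mul hp).1 h4 with h5 | h5
      · exact absurd (Nat.le_of_dvd ha h5) (by omega)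
      · exact hpq ((Nat.prime_dvd_prime_iff_eq hp hq).1 h5)
  have h8 : (1 : ℝ) ≤ |(m : ℝ)| := by
    have := Int.one_le_abs hm0
    exact_mod_cast this
  rw [h1]
  have hQ0 : (0 : ℝ) < Q := lt_of_lt_of_le hp0 (by exact_mod_cast hpQ)
  have hpQ' : (p : ℝ) ≤ Q := by exact_mod_cast hpQ
  have hqQ' : (q : ℝ) ≤ Q := by exact_mod_cast hqQ
  rw [div_le_div_iff₀ (by positivity) (by positivity)]
  have h9 : (p : ℝ) * q ≤ Q ^ 2 := by
    rw [sq]
    exact mul_le_mul hpQ' hqQ' hq0.le hQ0.le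
  nlinarith

/-- Large sieve at Farey points with prime denominators. -/
theorem farey (P : Finset ℕ) (hP : ∀ p ∈ P, p.Prime) (Q : ℕ) (hQ : ∀ p ∈ P, p ≤ Q)
    (w : ℤ → ℂ) (M : ℤ) (N : ℕ) :
    ∑ p ∈ P, ∑ a ∈ Ico 1 p, ‖∑ n ∈ Ioc M (M + N), w n * e (n * ((a : ℝ) / p))‖ ^ 2 ≤
      (2 * (N : ℝ) + 3 * (Q : ℝ) ^ 2) * ∑ n ∈ Ioc M (M + N), ‖w n‖ ^ 2 := by
  rcases P.eq_empty_or_nonempty with rfl | ⟨p₀, hp₀⟩
  · simp only [sum_empty]
    positivity
  have hQ1 : 1 ≤ Q := (hP p₀ hp₀).one_lt.le.trans (hQ p₀ hp₀)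
  have hQ0 : (0 : ℝ) < Q := by exact_mod_cast hQ1
  have h1 := large_sieve (P.sigma fun p => Ico 1 p) (fun x => ((x.2 : ℕ) : ℝ) / (x.1 : ℕ))
    (1 / (Q : ℝ) ^ 2) (by positivity)
    (by
      rintro ⟨p, a⟩ hi ⟨q, b⟩ hj hne
      rw [mem_sigma, mem_Ico] at hi hj
      simp only at hi hj ⊢
      refine nd_farey (hP p hi.1) (hP q hj.1) (by omega) hi.2.2 (by omega) hj.2.2 ?_ (hQ p hi.1)
        (hQ q hj.1)
      rintro ⟨rfl, rfl⟩
      exact hne rfl)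
    w M N (N + Q ^ 2) (by omega) (by positivity)
  rw [sum_sigma] at h1
  refine h1.trans ?_
  apply mul_le_mul_of_nonneg_right _ (sum_nonneg fun _ _ => by positivity)
  have h2 : 1 / (((N + Q ^ 2 : ℕ) : ℝ) * (1 / (Q : ℝ) ^ 2) ^ 2) ≤ (Q : ℝ) ^ 2 := by
    have h3 : (Q : ℝ) ^ 2 ≤ ((N + Q ^ 2 : ℕ) : ℝ) := by
      push_cast
      linarith [(Nat.cast_nonneg N : (0 : ℝ) ≤ N)]
    rw [div_le_iff₀ (by positivity)]
    calc (1 : ℝ) = (Q : ℝ) ^ 2 * ((Q : ℝ) ^ 2 * (1 / (Q : ℝ) ^ 2) ^ 2) := by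
          field_simp
      _ ≤ (Q : ℝ) ^ 2 * (((N + Q ^ 2 : ℕ) : ℝ) * (1 / (Q : ℝ) ^ 2) ^ 2) := by
          apply mul_le_mul_of_nonneg_left _ (by positivity)
          exact mul_le_mul_of_nonneg_right h3 (by positivity)
  push_cast at h2 ⊢
  linarith

/-- sum over a residue class -/
noncomputable def cls (I : Finset ℤ) (w : ℤ → ℂ) (p : ℕ) (r : ZMod p) : ℂ :=
  ∑ n ∈ I with ((n : ℤ) : ZMod p) = r, w n

theorem sum_e_dvd (p : ℕ) (hp : 0 < p) (n : ℤ) (h : (p : ℤ) ∣ n) :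
    ∑ a ∈ range p, e (n * ((a : ℝ) / p)) = p := by
  obtain ⟨k, rfl⟩ := h
  have hp' : (p : ℝ) ≠ 0 := by exact_mod_cast hp.ne'
  have : ∀ a ∈ range p, e (((p * k : ℤ) : ℝ) * ((a : ℝ) / p)) = 1 := by
    intro a _
    have h1 : ((p * k : ℤ) : ℝ) * ((a : ℝ) / p) = ((k * a : ℤ) : ℝ) := by
      push_cast
      field_simp
    rw [h1, e_int]
  rw [sum_congr rfl this]
  simp

theorem sum_e_not_dvd (p : ℕ) (hp : 0 < p) (n : ℤ) (h : ¬ (p : ℤ) ∣ n) :
    ∑ a ∈ range p, e (n * ((a : ℝ) / p)) = 0 := by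
  have hp' : (p : ℝ) ≠ 0 := by exact_mod_cast hp.ne'
  have h1 : ∑ a ∈ range p, e (n * ((a : ℝ) / p)) = ∑ a ∈ range p, e ((n : ℝ) / p) ^ a := by
    refine sum_congr rfl fun a _ => ?_
    rw [← e_natMul]
    congr 1
    ring
  rw [h1]
  have h2 : (∑ a ∈ range p, e ((n : ℝ) / p) ^ a) * (e ((n : ℝ) / p) - 1) = 0 := by
    rw [geom_sum_mul, ← e_natMul]
    have : (p : ℝ) * ((n : ℝ) / p) = ((n : ℤ) : ℝ) := by
      field_simp
    rw [this, e_int, sub_self]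
  rcases mul_eq_zero.1 h2 with h3 | h3
  · exact h3
  · exfalso
    apply h
    have h4 : e ((n : ℝ) / p) = 1 := sub_eq_zero.1 h3
    unfold e at h4
    rw [Complex.exp_eq_one_iff] at h4
    obtain ⟨k, hk⟩ := h4
    have hpi : (2 * Real.pi * Complex.I : ℂ) ≠ 0 := Complex.two_pi_I_ne_zero
    have h5 : (((n : ℝ) / p : ℝ) : ℂ) = k := by
      have h6 : (2 * Real.pi * Complex.I : ℂ) * (((n : ℝ) / p : ℝ) : ℂ) =
          (2 * Real.pi * Complex.I : ℂ) * k := by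
        rw [← sub_eq_zero]
        have := sub_eq_zero.2 hk
        rw [← this]
        ring
      exact mul_left_cancel₀ hpi h6
    have h6 : (n : ℝ) / p = k := by exact_mod_cast h5
    refine ⟨k, ?_⟩
    have h7 : (n : ℝ) = p * k := by
      field_simp at h6
      linarith
    exact_mod_cast h7

theorem parseval (p : ℕ) [NeZero p] (I : Finset ℤ) (w : ℤ → ℂ) :
    ∑ a ∈ range p, ‖∑ n ∈ I, w n * e (n * ((a : ℝ) / p))‖ ^ 2 =
      p * ∑ r : ZMod p, ‖cls I w p r‖ ^ 2 := by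
  have hp : 0 < p := Nat.pos_of_ne_zero (NeZero.ne p)
  have hsq : ∀ z : ℂ, ((‖z‖ ^ 2 : ℝ) : ℂ) = z * (starRingEnd ℂ) z := fun z => by
    rw [Complex.mul_conj, Complex.normSq_eq_norm_sq]
  have h1 : ((∑ a ∈ range p, ‖∑ n ∈ I, w n * e (n * ((a : ℝ) / p))‖ ^ 2 : ℝ) : ℂ) =
      ∑ n ∈ I, ∑ m ∈ I, w n * (starRingEnd ℂ) (w m) *
        (if ((n : ℤ) : ZMod p) = ((m : ℤ) : ZMod p) then (p : ℂ) else 0) := by
    rw [Complex.ofReal_sum]
    have h2 : ∀ a ∈ range p, ((‖∑ n ∈ I, w n * e (n * ((a : ℝ) / p))‖ ^ 2 : ℝ) : ℂ) =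
        ∑ n ∈ I, ∑ m ∈ I, w n * (starRingEnd ℂ) (w m) * e (((n - m : ℤ) : ℝ) * ((a : ℝ) / p)) := by
      intro a _
      rw [hsq, map_sum, sum_mul_sum]
      refine sum_congr rfl fun n _ => sum_congr rfl fun m _ => ?_
      rw [map_mul, ← e_neg]
      have h4 : e (((n - m : ℤ) : ℝ) * ((a : ℝ) / p)) =
          e (n * ((a : ℝ) / p)) * e (-(m * ((a : ℝ) / p))) := by
        rw [← e_add]
        congr 1
        push_cast
        ring
      rw [h4]
      ring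
    rw [sum_congr rfl h2, sum_comm]
    refine sum_congr rfl fun n _ => ?_
    rw [sum_comm]
    refine sum_congr rfl fun m _ => ?_
    rw [← mul_sum]
    congr 1
    split_ifs with h
    · apply sum_e_dvd p hp
      rw [← ZMod.intCast_eq_intCast_iff_dvd_sub]
      exact h.symm
    · apply sum_e_not_dvd p hp
      intro h'
      apply h
      rw [← ZMod.intCast_eq_intCast_iff_dvd_sub] at h'
      exact h'.symm
  have h3 : ((p * ∑ r : ZMod p, ‖cls I w p r‖ ^ 2 : ℝ) : ℂ) =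
      ∑ n ∈ I, ∑ m ∈ I, w n * (starRingEnd ℂ) (w m) *
        (if ((n : ℤ) : ZMod p) = ((m : ℤ) : ZMod p) then (p : ℂ) else 0) := by
    rw [Complex.ofReal_mul, Complex.ofReal_sum]
    have h4 : ∀ r : ZMod p, ((‖cls I w p r‖ ^ 2 : ℝ) : ℂ) = ∑ n ∈ I, ∑ m ∈ I,
        (if ((n : ℤ) : ZMod p) = r then w n else 0) *
          (if ((m : ℤ) : ZMod p) = r then (starRingEnd ℂ) (w m) else 0) := by
      intro r
      rw [hsq]
      unfold cls
      rw [map_sum, sum_filter, sum_filter, sum_mul_sum]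
    simp_rw [h4]
    rw [sum_comm, mul_sum]
    refine sum_congr rfl fun n _ => ?_
    rw [sum_comm, mul_sum]
    refine sum_congr rfl fun m _ => ?_
    have h5 : ∑ r : ZMod p, (if ((n : ℤ) : ZMod p) = r then w n else 0) *
        (if ((m : ℤ) : ZMod p) = r then (starRingEnd ℂ) (w m) else 0) =
        if ((n : ℤ) : ZMod p) = ((m : ℤ) : ZMod p) then w n * (starRingEnd ℂ) (w m) else 0 := by
      simp_rw [ite_mul, zero_mul]
      rw [sum_ite_eq univ ((n : ℤ) : ZMod p)]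
      simp only [mem_univ, if_true]
      by_cases h : ((n : ℤ) : ZMod p) = ((m : ℤ) : ZMod p)
      · rw [if_pos h, if_pos h.symm]
      · rw [if_neg h, if_neg (fun h' => h h'.symm), mul_zero]
    rw [h5]
    split_ifs
    · push_cast; ring
    · simp
  exact_mod_cast (h1.trans h3.symm)

theorem sum_cls (p : ℕ) [NeZero p] (I : Finset ℤ) (w : ℤ → ℂ) :
    ∑ r : ZMod p, cls I w p r = ∑ n ∈ I, w n := by
  unfold cls
  exact sum_fiberwise I (fun n : ℤ => ((n : ℤ) : ZMod p)) w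

/-- variance identity -/
theorem variance (p : ℕ) [NeZero p] (I : Finset ℤ) (w : ℤ → ℂ) :
    ∑ a ∈ Ico 1 p, ‖∑ n ∈ I, w n * e (n * ((a : ℝ) / p))‖ ^ 2 =
      p * ∑ r : ZMod p, ‖cls I w p r - (∑ n ∈ I, w n) / p‖ ^ 2 := by
  have hp : 0 < p := Nat.pos_of_ne_zero (NeZero.ne p)
  have hp' : (p : ℝ) ≠ 0 := by exact_mod_cast hp.ne'
  have h1 := parseval p I w
  rw [range_eq_Ico, sum_eq_sum_Ico_succ_bot hp] at h1
  simp only [Nat.cast_zero, zero_div, mul_zero, e_zero, mul_one, zero_add] at h1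
  set S : ℂ := ∑ n ∈ I, w n with hS
  have h2 : ∑ r : ZMod p, ‖cls I w p r - S / p‖ ^ 2 =
      ∑ r : ZMod p, ‖cls I w p r‖ ^ 2 - ‖S‖ ^ 2 / p := by
    have h3 : ∀ r : ZMod p, ‖cls I w p r - S / p‖ ^ 2 =
        ‖cls I w p r‖ ^ 2 + ‖S / p‖ ^ 2 - 2 * (cls I w p r * (starRingEnd ℂ) (S / p)).re := by
      intro r
      rw [← Complex.normSq_eq_norm_sq, ← Complex.normSq_eq_norm_sq, ← Complex.normSq_eq_norm_sq,
        Complex.normSq_sub]
    simp_rw [h3]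
    rw [sum_sub_distrib, sum_add_distrib, ← mul_sum, ← Complex.re_sum, ← sum_mul, sum_cls]
    have h4 : (S * (starRingEnd ℂ) (S / p)).re = ‖S‖ ^ 2 / p := by
      have h5 : S * (starRingEnd ℂ) (S / p) = ((‖S‖ ^ 2 / p : ℝ) : ℂ) := by
        rw [map_div₀, Complex.conj_natCast, ← mul_div_assoc, Complex.mul_conj,
          Complex.normSq_eq_norm_sq]
        push_cast
        ring
      rw [h5, Complex.ofReal_re]
    have h6 : ∑ _r : ZMod p, ‖S / p‖ ^ 2 = ‖S‖ ^ 2 / p := by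
      rw [sum_const, card_univ, ZMod.card, nsmul_eq_mul, norm_div, Complex.norm_natCast]
      field_simp
    rw [h4, h6]
    ring
  rw [h2]
  have h7 : (p : ℝ) * (∑ r : ZMod p, ‖cls I w p r‖ ^ 2 - ‖S‖ ^ 2 / p) =
      p * ∑ r : ZMod p, ‖cls I w p r‖ ^ 2 - ‖S‖ ^ 2 := by
    field_simp
  rw [h7, ← h1]
  ring

/-- **Large sieve**, variance form for prime moduli (complex weights). -/
theorem large_sieve_variance (P : Finset ℕ) (hP : ∀ p ∈ P, p.Prime) (Q : ℕ) (hQ : ∀ p ∈ P, p ≤ Q)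
    (w : ℤ → ℂ) (M : ℤ) (N : ℕ) :
    ∑ p ∈ P, (p : ℝ) * (if h : p = 0 then 0 else
      haveI : NeZero p := ⟨h⟩
      ∑ r : ZMod p, ‖cls (Ioc M (M + N)) w p r - (∑ n ∈ Ioc M (M + N), w n) / p‖ ^ 2) ≤
      (2 * (N : ℝ) + 3 * (Q : ℝ) ^ 2) * ∑ n ∈ Ioc M (M + N), ‖w n‖ ^ 2 := by
  refine le_trans (le_of_eq ?_) (farey P hP Q hQ w M N)
  refine sum_congr rfl fun p hp => ?_
  have h0 : p ≠ 0 := (hP p hp).ne_zero
  rw [dif_neg h0]
  have : NeZero p := ⟨h0⟩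
  exact (variance p _ w).symm

end Crest.Agent.R001.LS
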