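import Mathlib

/-! R001, block LS: the large sieve inequality (Fejér-type kernel and duality, finite sums only). -/

set_option autoImplicit false

namespace Crest.Agent.R001.LS

open Finset

/-- `e(x) = exp(2πix)`. -/
noncomputable def e (x : ℝ) : ℂ := Complex.exp (2 * Real.pi * x * Complex.I)

theorem e_add (x y : ℝ) : e (x + y) = e x * e y := by
  unfold e
  rw [← Complex.exp_add]
  congr 1
  push_cast
  ring

theorem e_zero : e 0 = 1 := by simp [e]

theorem norm_e (x : ℝ) : ‖e x‖ = 1 := by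
  unfold e
  have h : (2 * Real.pi * x * Complex.I : ℂ) = ((2 * Real.pi * x : ℝ) : ℂ) * Complex.I := by
    push_cast
    ring
  rw [h, Complex.norm_exp_ofReal_mul_I]

theorem e_neg (x : ℝ) : e (-x) = (starRingEnd ℂ) (e x) := by
  unfold e
  rw [← Complex.exp_conj]
  congr 1
  simp only [map_mul, Complex.conj_I, Complex.conj_ofReal, map_ofNat]
  push_cast
  ring

theorem e_int (n : ℤ) : e n = 1 := by
  unfold e
  rw [Complex.exp_eq_one_iff]
  exact ⟨n, by push_cast; ring⟩

theorem e_sub_int (x : ℝ) (n : ℤ) : e (x - n) = e x := by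
  have h := e_add (x - n) n
  rw [e_int, mul_one] at h
  rw [← h]
  congr 1
  ring

theorem e_natMul (k : ℕ) (x : ℝ) : e (k * x) = e x ^ k := by
  unfold e
  rw [← Complex.exp_nat_mul]
  congr 1
  push_cast
  ring

/-- Dirichlet kernel. -/
noncomputable def D (K : ℕ) (x : ℝ) : ℂ := ∑ k ∈ range K, e (k * x)

theorem norm_D_le (K : ℕ) (x : ℝ) : ‖D K x‖ ≤ K := by
  unfold D
  refine (norm_sum_le _ _).trans ?_
  simp [norm_e]

theorem norm_e_sub_one (x : ℝ) : ‖e x - 1‖ = 2 * |Real.sin (Real.pi * x)| := by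
  have h1 : e x - 1 = e (x / 2) * (e (x / 2) - e (-(x / 2))) := by
    rw [mul_sub, ← e_add, ← e_add]
    simp [e_zero]
  rw [h1, norm_mul, norm_e, one_mul]
  have h2 : e (x / 2) - e (-(x / 2)) = ((2 * Real.sin (Real.pi * x) : ℝ) : ℂ) * Complex.I := by
    unfold e
    have h3 : (2 * Real.pi * ((x / 2 : ℝ) : ℂ) * Complex.I : ℂ) = ((Real.pi * x : ℝ) : ℂ) * Complex.I := by
      push_cast; ring
    have h4 : (2 * Real.pi * ((-(x / 2) : ℝ) : ℂ) * Complex.I : ℂ) =
        ((-(Real.pi * x) : ℝ) : ℂ) * Complex.I := by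
      push_cast; ring
    rw [h3, h4, Complex.exp_mul_I, Complex.exp_mul_I, ← Complex.ofReal_cos, ← Complex.ofReal_sin,
      ← Complex.ofReal_cos, ← Complex.ofReal_sin, Real.cos_neg, Real.sin_neg]
    push_cast
    ring
  rw [h2, norm_mul, Complex.norm_I, mul_one, Complex.norm_real, Real.norm_eq_abs, abs_mul,
    abs_of_nonneg (by norm_num : (0 : ℝ) ≤ 2)]

/-- `|sin πx| ≥ 2‖x‖` (distance to the nearest integer). -/
theorem sin_ge (x : ℝ) : 2 * |x - round x| ≤ |Real.sin (Real.pi * x)| := by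
  set y : ℝ := x - round x with hy
  have hy2 : |y| ≤ 1 / 2 := abs_sub_round x
  have h1 : |Real.sin (Real.pi * x)| = |Real.sin (Real.pi * y)| := by
    have h2 : Real.pi * x = Real.pi * y + (round x : ℤ) * Real.pi := by
      rw [hy]; ring
    rw [h2, Real.sin_add_int_mul_pi, abs_mul]
    rcases Int.even_or_odd (round x) with h | h
    · simp [h.neg_one_zpow]
    · simp [h.neg_one_zpow]
  rw [h1]
  have h3 : |Real.sin (Real.pi * y)| = Real.sin (Real.pi * |y|) := by
    have h4 : Real.sin (Real.pi * |y|) = Real.sin |Real.pi * y| := by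
      rw [abs_mul, abs_of_pos Real.pi_pos]
    rw [h4, Real.abs_sin_eq_sin_abs_of_abs_le_pi]
    rw [abs_mul, abs_of_pos Real.pi_pos]
    nlinarith [Real.pi_pos]
  rw [h3]
  have h5 := Real.mul_le_sin (x := Real.pi * |y|) (by positivity) (by nlinarith [Real.pi_pos])
  have h6 : 2 / Real.pi * (Real.pi * |y|) = 2 * |y| := by
    field_simp
  linarith

theorem norm_D_mul (K : ℕ) (x : ℝ) : ‖D K x‖ * (2 * |x - round x|) ≤ 1 := by
  have h1 : D K x * (e x - 1) = e (K * x) - 1 := by
    unfold D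
    rw [e_natMul]
    have : ∑ k ∈ range K, e (k * x) = ∑ k ∈ range K, e x ^ k := by
      refine sum_congr rfl fun k _ => e_natMul k x
    rw [this]
    exact geom_sum_mul (e x) K
  have h2 : ‖D K x‖ * ‖e x - 1‖ ≤ 2 := by
    rw [← norm_mul, h1]
    refine (norm_sub_le _ _).trans ?_
    rw [norm_e, norm_one]
    norm_num
  rw [norm_e_sub_one] at h2
  have h3 := sin_ge x
  have h4 : 0 ≤ ‖D K x‖ := norm_nonneg _
  nlinarith

end Crest.Agent.R001.LS
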