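import Crest.Agent.R001.LS.Arith

/-! R001, block LS: large sieve, real weights, residue classes as remainders in `range p`;
number of classes with a large deviation. -/

set_option autoImplicit false

namespace Crest.Agent.R001.LS

open Finset

/-- sum of `w` over the elements of `I` congruent to `r` mod `p` -/
noncomputable def cs (I : Finset ℤ) (w : ℤ → ℝ) (p r : ℕ) : ℝ :=
  ∑ n ∈ I with n % (p : ℤ) = (r : ℤ), w n

theorem cls_cast (I : Finset ℤ) (w : ℤ → ℝ) (p : ℕ) [NeZero p] (r : ZMod p) :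
    cls I (fun n => (w n : ℂ)) p r = ((cs I w p r.val : ℝ) : ℂ) := by
  unfold cls cs
  rw [Complex.ofReal_sum]
  apply sum_congr _ fun _ _ => rfl
  apply filter_congr
  intro n _
  have hp : (0 : ℤ) < p := by exact_mod_cast Nat.pos_of_ne_zero (NeZero.ne p)
  constructor
  · rintro rfl
    rw [ZMod.val_intCast]
  · intro h
    have h1 : ((n % (p : ℤ) : ℤ) : ZMod p) = ((r.val : ℤ) : ZMod p) := by rw [h]
    rw [ZMod.intCast_mod] at h1
    rw [h1]
    simp

theorem sum_zmod_eq (p : ℕ) [NeZero p] (f : ℕ → ℝ) :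
    ∑ r : ZMod p, f r.val = ∑ r ∈ range p, f r := by
  refine sum_bij (fun (r : ZMod p) _ => r.val) ?_ ?_ ?_ ?_
  · intro r _
    rw [mem_range]
    exact ZMod.val_lt r
  · intro a _ b _ h
    exact ZMod.val_injective p h
  · intro b hb
    rw [mem_range] at hb
    refine ⟨(b : ZMod p), mem_univ _, ?_⟩
    rw [ZMod.val_natCast, Nat.mod_eq_of_lt hb]
  · intro r _
    rfl

/-- **Large sieve**, variance form, real weights. -/
theorem large_sieve_real (P : Finset ℕ) (hP : ∀ p ∈ P, p.Prime) (Q : ℕ) (hQ : ∀ p ∈ P, p ≤ Q)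
    (w : ℤ → ℝ) (M : ℤ) (N : ℕ) :
    ∑ p ∈ P, (p : ℝ) * ∑ r ∈ range p,
        (cs (Ioc M (M + N)) w p r - (∑ n ∈ Ioc M (M + N), w n) / p) ^ 2 ≤
      (2 * (N : ℝ) + 3 * (Q : ℝ) ^ 2) * ∑ n ∈ Ioc M (M + N), (w n) ^ 2 := by
  have h1 := farey P hP Q hQ (fun n => (w n : ℂ)) M N
  have h2 : ∑ n ∈ Ioc M (M + N), ‖((w n : ℝ) : ℂ)‖ ^ 2 = ∑ n ∈ Ioc M (M + N), (w n) ^ 2 := by
    refine sum_congr rfl fun n _ => ?_
    rw [Complex.norm_real, Real.norm_eq_abs, sq_abs]
  rw [h2] at h1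
  refine le_trans (le_of_eq ?_) h1
  refine sum_congr rfl fun p hp => ?_
  have : NeZero p := ⟨(hP p hp).ne_zero⟩
  rw [variance p]
  congr 1
  rw [← sum_zmod_eq p]
  refine sum_congr rfl fun r _ => ?_
  rw [cls_cast]
  have h3 : ((cs (Ioc M (M + N)) w p r.val : ℝ) : ℂ) - (∑ n ∈ Ioc M (M + N), ((w n : ℝ) : ℂ)) / p =
      ((cs (Ioc M (M + N)) w p r.val - (∑ n ∈ Ioc M (M + N), w n) / p : ℝ) : ℂ) := by
    push_cast
    ring
  rw [h3, Complex.norm_real, Real.norm_eq_abs, sq_abs]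

open Classical in
/-- residue classes mod `p` in which the sum of `w` deviates from its mean by at least `η` times
the mean -/
noncomputable def badCls (I : Finset ℤ) (w : ℤ → ℝ) (η : ℝ) (p : ℕ) : Finset ℕ :=
  (range p).filter fun r => η * ((∑ n ∈ I, w n) / p) ≤ |cs I w p r - (∑ n ∈ I, w n) / p|

/-- The number of bad residue classes. -/
theorem card_badCls (P : Finset ℕ) (hP : ∀ p ∈ P, p.Prime) (Q : ℕ) (hQ : ∀ p ∈ P, p ≤ Q)
    (w : ℤ → ℝ) (M : ℤ) (N : ℕ) (η : ℝ) (hη : 0 ≤ η) (hS : 0 ≤ ∑ n ∈ Ioc M (M + N), w n) :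
    (∑ p ∈ P, ((badCls (Ioc M (M + N)) w η p).card : ℝ)) *
        (η * ∑ n ∈ Ioc M (M + N), w n) ^ 2 ≤
      (Q : ℝ) * (2 * (N : ℝ) + 3 * (Q : ℝ) ^ 2) * ∑ n ∈ Ioc M (M + N), (w n) ^ 2 := by
  classical
  set I := Ioc M (M + (N : ℤ)) with hI
  set S : ℝ := ∑ n ∈ I, w n with hSdef
  have h1 := large_sieve_real P hP Q hQ w M N
  rw [← hI, ← hSdef] at h1
  have h2 : (∑ p ∈ P, ((badCls I w η p).card : ℝ)) * (η * S) ^ 2 ≤
      (Q : ℝ) * ∑ p ∈ P, (p : ℝ) * ∑ r ∈ range p, (cs I w p r - S / p) ^ 2 := by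
    have h20 : (Q : ℝ) * ∑ p ∈ P, (p : ℝ) * ∑ r ∈ range p, (cs I w p r - S / p) ^ 2 =
        ∑ p ∈ P, (Q : ℝ) * ((p : ℝ) * ∑ r ∈ range p, (cs I w p r - S / p) ^ 2) :=
      Finset.mul_sum _ _ _
    rw [sum_mul, h20]
    refine sum_le_sum fun p hp => ?_
    have hp0 : (0 : ℝ) < p := by exact_mod_cast (hP p hp).pos
    have hpQ : (p : ℝ) ≤ Q := by exact_mod_cast hQ p hp
    have h3 : ((badCls I w η p).card : ℝ) * (η * (S / p)) ^ 2 ≤
        ∑ r ∈ range p, (cs I w p r - S / p) ^ 2 := by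
      calc ((badCls I w η p).card : ℝ) * (η * (S / p)) ^ 2
          = ∑ _r ∈ badCls I w η p, (η * (S / p)) ^ 2 := by
            rw [sum_const, nsmul_eq_mul]
        _ ≤ ∑ r ∈ badCls I w η p, (cs I w p r - S / p) ^ 2 := by
            refine sum_le_sum fun r hr => ?_
            unfold badCls at hr
            rw [mem_filter] at hr
            rw [← sq_abs (cs I w p r - S / p)]
            refine pow_le_pow_left₀ ?_ hr.2 2
            positivity
        _ ≤ ∑ r ∈ range p, (cs I w p r - S / p) ^ 2 := by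
            apply sum_le_sum_of_subset_of_nonneg
            · exact filter_subset _ _
            · intro _ _ _
              positivity
    have h4 : ((badCls I w η p).card : ℝ) * (η * S) ^ 2 =
        (p : ℝ) ^ 2 * (((badCls I w η p).card : ℝ) * (η * (S / p)) ^ 2) := by
      field_simp
    rw [h4]
    calc (p : ℝ) ^ 2 * (((badCls I w η p).card : ℝ) * (η * (S / p)) ^ 2)
        ≤ (p : ℝ) ^ 2 * ∑ r ∈ range p, (cs I w p r - S / p) ^ 2 :=
          mul_le_mul_of_nonneg_left h3 (by positivity)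
      _ = p * (p * ∑ r ∈ range p, (cs I w p r - S / p) ^ 2) := by ring
      _ ≤ Q * (p * ∑ r ∈ range p, (cs I w p r - S / p) ^ 2) := by
          apply mul_le_mul_of_nonneg_right hpQ
          exact mul_nonneg hp0.le (sum_nonneg fun _ _ => by positivity)
  refine h2.trans ?_
  rw [mul_assoc]
  exact mul_le_mul_of_nonneg_left h1 (Nat.cast_nonneg Q)

/-- **Larger sieve** type consequence: classes. -/
theorem sum_cs (I : Finset ℤ) (w : ℤ → ℝ) (p : ℕ) (hp : 0 < p) :
    ∑ r ∈ range p, cs I w p r = ∑ n ∈ I, w n := by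
  unfold cs
  have hp' : (0 : ℤ) < p := by exact_mod_cast hp
  rw [← sum_fiberwise_of_maps_to (s := I) (t := range p) (g := fun n => (n % (p : ℤ)).toNat)]
  · refine sum_congr rfl fun r _ => ?_
    apply sum_congr _ fun _ _ => rfl
    apply filter_congr
    intro n _
    have h1 := Int.emod_nonneg n hp'.ne'
    omega
  · intro n _
    have h1 := Int.emod_nonneg n hp'.ne'
    have h2 := Int.emod_lt_of_pos n hp'
    rw [mem_range]
    omega

end Crest.Agent.R001.LS
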